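import Mathlib

/-!
P047: the square-root bound holds with the nonnegative junta degree of one side in place of the
decision-tree depth.
-/

namespace Vale.Agent.Results.P047.ConicalJuntaSqrt

open Finset

/-- The value `1` or `-1` of a bit. -/
noncomputable def spin (b : Bool) : ℝ := if b then 1 else -1

/-- The sum of the linear Fourier coefficients `𝔼[f(X)(X_1+⋯+X_n)]`. -/
noncomputable def linearSum {n : ℕ} (f : (Fin n → Bool) → ℝ) : ℝ :=
  (∑ x, f x * ∑ i, spin (x i)) / 2 ^ n

/-- The indicator of the subcube where the coordinates in `c.1` agree with `c.2`. -/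
noncomputable def cube {n : ℕ} (c : Finset (Fin n) × (Fin n → Bool)) (x : Fin n → Bool) : ℝ :=
  ∏ i ∈ c.1, if x i = c.2 i then 1 else 0

theorem sum_weight_cube {n : ℕ} (e : ℝ) (c : Finset (Fin n) × (Fin n → Bool)) :
    ∑ x : Fin n → Bool, (∏ i, (1 + e * spin (x i)) / 2) * cube c x
      = ∏ i ∈ c.1, (1 + e * spin (c.2 i)) / 2 := by
  classical
  calc ∑ x : Fin n → Bool, (∏ i, (1 + e * spin (x i)) / 2) * cube c x
      = ∑ x : Fin n → Bool, ∏ i, ((1 + e * spin (x i)) / 2 *
          if i ∈ c.1 then (if x i = c.2 i then 1 else 0) else 1) := by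
        refine sum_congr rfl fun x _ => ?_
        rw [prod_mul_distrib, cube]
        simp [prod_ite_mem]
    _ = ∏ i, ∑ b : Bool, ((1 + e * spin b) / 2 *
          if i ∈ c.1 then (if b = c.2 i then 1 else 0) else 1) := by
        rw [prod_univ_sum, Fintype.piFinset_univ]
    _ = ∏ i, if i ∈ c.1 then (1 + e * spin (c.2 i)) / 2 else 1 := by
        refine prod_congr rfl fun i _ => ?_
        by_cases h : i ∈ c.1
        · cases hb : c.2 i <;> simp [h, hb, Fintype.sum_bool]
        · simp [h, spin, Fintype.sum_bool]; ring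
    _ = _ := by simp [prod_ite_mem]

theorem spin_sum_cube {n : ℕ} (c : Finset (Fin n) × (Fin n → Bool)) :
    ∑ x : Fin n → Bool, cube c x * ∑ i, spin (x i)
      = 2 ^ n * ((∑ i ∈ c.1, spin (c.2 i)) / 2 ^ c.1.card) := by
  classical
  simp only [mul_sum]
  rw [sum_comm]
  have key : ∀ i, ∑ x : Fin n → Bool, cube c x * spin (x i)
      = if i ∈ c.1 then 2 ^ n * (spin (c.2 i) / 2 ^ c.1.card) else 0 := by
    intro i
    have hw := sum_weight_cube (n := n) 0 c
    simp only [zero_mul, add_zero, prod_const, card_univ, Fintype.card_fin, div_pow, one_pow] at hw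
    rw [← mul_sum] at hw
    by_cases h : i ∈ c.1
    · rw [if_pos h]
      have : ∀ x : Fin n → Bool, cube c x * spin (x i) = spin (c.2 i) * cube c x := by
        intro x
        by_cases hx : x i = c.2 i
        · rw [hx]; ring
        · have : cube c x = 0 := prod_eq_zero h (by simp [hx])
          simp [this]
      simp only [this, ← mul_sum]
      field_simp at hw ⊢
      linear_combination hw * spin (c.2 i)
    · rw [if_neg h]
      refine sum_ninvolution (fun x => Function.update x i (!(x i))) (fun x => ?_) (fun x _ hx => ?_)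
        (fun x => mem_univ _) (fun x => by simp)
      · have : cube c (Function.update x i (!(x i))) = cube c x :=
          prod_congr rfl fun j hj => by rw [Function.update_of_ne (by rintro rfl; exact h hj)]
        cases hx : x i <;> simp_all [spin] <;> ring
      · simp at hx
  simp only [key]
  rw [sum_ite_mem, univ_inter, sum_div, mul_sum]

/-- If the set where a Boolean function equals one is a nonnegative combination of subcubes fixing
at most `d` coordinates, the sum of its linear coefficients is at most `4 √d`. -/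
theorem result :
    ∀ (n d : ℕ) (f : (Fin n → Bool) → ℝ) (ι : Type) (_ : Fintype ι) (w : ι → ℝ)
      (c : ι → Finset (Fin n) × (Fin n → Bool)),
      (∀ x, f x = 1 ∨ f x = -1) → (∀ k, 0 ≤ w k) → (∀ k, (c k).1.card ≤ d) →
      (∀ x, (1 + f x) / 2 = ∑ k, w k * cube (c k) x) →
      linearSum f ≤ 4 * Real.sqrt d := by
  classical
  intro n d f ι _ w c hf hw hc hrep
  have hlin : linearSum f = 2 * ∑ k, w k / 2 ^ (c k).1.card * ∑ i ∈ (c k).1, spin ((c k).2 i) := by
    unfold linearSum
    have h0 : ∑ x : Fin n → Bool, ∑ i, spin (x i) = 0 := by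
      have := spin_sum_cube (n := n) (∅, fun _ => true)
      simpa [cube] using this
    have : ∀ x : Fin n → Bool, f x * ∑ i, spin (x i) =
        (∑ k, 2 * (w k * (cube (c k) x * ∑ i, spin (x i)))) - ∑ i, spin (x i) := by
      intro x
      have hx := hrep x
      rw [← mul_sum]
      simp only [← mul_assoc, ← sum_mul, ← hx]
      ring
    simp only [this, sum_sub_distrib, h0, sub_zero]
    rw [sum_comm]
    simp only [← mul_sum, spin_sum_cube]
    rw [mul_div_assoc]
    congr 1
    rw [sum_div]
    refine sum_congr rfl fun k _ => ?_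
    field_simp
  rcases Nat.eq_zero_or_pos d with hd | hd
  · subst hd
    rw [hlin]
    have : ∀ k, (c k).1 = ∅ := fun k => card_eq_zero.1 (Nat.le_zero.1 (hc k))
    simp [this]
  -- evaluate the representation under two product measures
  set s : ℝ := Real.sqrt d with hs
  have hs1 : 1 ≤ s := Real.one_le_sqrt.2 (by exact_mod_cast hd)
  set e : ℝ := 1 / (2 * s) with he
  have he0 : 0 < e := by positivity
  have he2 : e ≤ 1 / 2 := by
    rw [he, div_le_iff₀ (by positivity)]; linarith
  have hes : e ^ 2 * d = 1 / 4 := by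
    have h2 : s ^ 2 = d := Real.sq_sqrt (by positivity)
    rw [he, ← h2]; field_simp; ring
  have htot : ∀ t : ℝ, |t| ≤ 1 →
      ∑ k, w k * ∏ i ∈ (c k).1, (1 + t * spin ((c k).2 i)) / 2 ≤ 1 := by
    intro t ht
    calc ∑ k, w k * ∏ i ∈ (c k).1, (1 + t * spin ((c k).2 i)) / 2
        = ∑ x : Fin n → Bool, (∏ i, (1 + t * spin (x i)) / 2) * ((1 + f x) / 2) := by
          simp only [hrep, mul_sum]
          rw [sum_comm]
          refine sum_congr rfl fun k _ => ?_
          rw [← sum_weight_cube, mul_sum]
          exact sum_congr rfl fun x _ => by ring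
      _ ≤ ∑ x : Fin n → Bool, (∏ i, (1 + t * spin (x i)) / 2) * 1 := by
          refine sum_le_sum fun x _ => mul_le_mul_of_nonneg_left ?_ (prod_nonneg fun i _ => ?_)
          · rcases hf x with h | h <;> rw [h] <;> norm_num
          · obtain ⟨a, b⟩ := abs_le.1 ht
            cases x i <;> simp [spin] <;> linarith
      _ = 1 := by
          have := sum_weight_cube (n := n) t (∅, fun _ => true)
          simpa [cube] using this
  -- the elementary lower bound for one subcube
  have hexp : ∀ a : ℝ, |a| ≤ 1 / 2 → Real.exp (a - a ^ 2) ≤ 1 + a := by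
    intro a ha
    obtain ⟨h1, h2⟩ := abs_le.1 ha
    have h3 := Real.add_one_le_exp (a ^ 2 - a)
    have h4 : Real.exp (a - a ^ 2) * Real.exp (a ^ 2 - a) = 1 := by
      rw [← Real.exp_add]; simp
    have key : 1 ≤ (1 + a) * Real.exp (a ^ 2 - a) := by
      rcases le_or_gt 0 a with h0 | h0
      · nlinarith [mul_nonneg (sq_nonneg a) h0]
      · have hy : 0 ≤ a ^ 2 - a := by nlinarith
        have hq := Real.quadratic_le_exp_of_nonneg hy
        have h5 : 0 ≤ a + (1 + a) * (1 - a) ^ 2 / 2 := by nlinarith
        nlinarith [mul_nonneg (sq_nonneg a) h5]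
    nlinarith [Real.exp_pos (a - a ^ 2)]
  have hone : ∀ k, (1 + e * (∑ i ∈ (c k).1, spin ((c k).2 i)) - e ^ 2 * d) / 2 ^ (c k).1.card
      ≤ ∏ i ∈ (c k).1, (1 + e * spin ((c k).2 i)) / 2 := by
    intro k
    rw [prod_div_distrib, prod_const]
    refine div_le_div_of_nonneg_right ?_ (by positivity)
    have hsp : ∀ b, spin b ^ 2 = 1 := fun b => by cases b <;> simp [spin]
    calc 1 + e * (∑ i ∈ (c k).1, spin ((c k).2 i)) - e ^ 2 * d
        ≤ (∑ i ∈ (c k).1, (e * spin ((c k).2 i) - (e * spin ((c k).2 i)) ^ 2)) + 1 := by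
          rw [sum_sub_distrib, ← mul_sum]
          simp only [mul_pow, hsp, mul_one, sum_const, nsmul_eq_mul]
          have : ((c k).1.card : ℝ) ≤ d := by exact_mod_cast hc k
          nlinarith
      _ ≤ Real.exp (∑ i ∈ (c k).1, (e * spin ((c k).2 i) - (e * spin ((c k).2 i)) ^ 2)) :=
          Real.add_one_le_exp _
      _ ≤ _ := by
          rw [Real.exp_sum]
          refine prod_le_prod (fun i _ => (Real.exp_pos _).le) fun i _ => hexp _ ?_
          cases (c k).2 i <;> simp [spin, abs_of_pos he0, he2, abs_neg] <;> linarith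
  set A := ∑ k, w k / 2 ^ (c k).1.card * ∑ i ∈ (c k).1, spin ((c k).2 i) with hA
  set m := ∑ k, w k / 2 ^ (c k).1.card with hm
  have hm1 : m ≤ 1 := by
    have := htot 0 (by simp)
    simpa [hm, div_pow, prod_const, div_eq_mul_inv] using this
  have hm0 : 0 ≤ m := sum_nonneg fun k _ => div_nonneg (hw k) (by positivity)
  have hmain : m + e * A - e ^ 2 * d * m ≤ 1 := by
    refine le_trans ?_ (htot e (by rw [abs_of_pos he0]; linarith))
    rw [hm, hA, mul_sum, mul_sum, ← sum_add_distrib, ← sum_sub_distrib]
    refine sum_le_sum fun k _ => le_trans (le_of_eq ?_) (mul_le_mul_of_nonneg_left (hone k) (hw k))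
    field_simp
  rw [hlin, hes] at *
  have : A ≤ 2 * s := by
    have : e * A ≤ 1 := by nlinarith
    rw [he, div_mul_eq_mul_div, div_le_iff₀ (by positivity)] at this
    linarith
  linarith

end Vale.Agent.Results.P047.ConicalJuntaSqrt
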