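import Vale.Agent.P047.Gadget
import Vale.Agent.P047.Amplify

/-!
P047: the square-root bound on the linear Fourier coefficients of Boolean functions is false,
also in its weak form.
-/

namespace Vale.Agent.Results.P047.SquareRootConjectureFalse

open Vale.Agent.P047

/-- For every constant `C` a Boolean function has `∑ᵢ f̂({i}) > C √(deg f)`; moreover, for some
`δ > 0`, arbitrarily large degrees `d` admit a linear sum at least `d ^ (1/2 + δ)`. -/
theorem result :
    (∀ C : ℝ, ∃ (n : ℕ) (f : (Fin n → Bool) → ℝ),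
      IsBool f ∧ C * Real.sqrt (degree f) < linSum f) ∧
    ∃ δ : ℝ, 0 < δ ∧ ∀ B : ℕ, ∃ (d n : ℕ) (f : (Fin n → Bool) → ℝ),
      B ≤ d ∧ IsBool f ∧ degree f ≤ d ∧ (d : ℝ) ^ (1/2 + δ) ≤ linSum f := by
  obtain ⟨ι, _, _, f, D, hf, hD, hL⟩ := exists_gadget
  exact amplify f hf D hD hL

end Vale.Agent.Results.P047.SquareRootConjectureFalse
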